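import Vale.Agent.P263B5.Two
import Vale.Agent.P263B15.Rows

/-!
# P263B: the row `KE`
-/

open Vale.Agent.P246.T Vale.Agent.P246.T.FM

namespace Vale.Agent.P263B5

open Vale.Agent.P263.AD.Freu Vale.Agent.P263B15

/-- **The Künneth theorem in the first non-trivial degree.** -/
theorem ke : KE := by
  intro A B _ _ a₀ b₀ a b hA hB gA gB z z' hz hz'
  obtain ⟨w, -, hk, hg⟩ := kun_edge' a₀ b₀ a b hA hB (rgen_of_h2 gA) (rgen_of_h2 gB)
  have key : ∀ z : Ch (a + b) (A × B), RedCyc (a + b) z →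
      Hg z (dec a₀ b₀ (a + b) z) ∨ Hg (z - dec a₀ b₀ (a + b) z) w := by
    intro z hz
    obtain ⟨m, hm⟩ := hg z hz
    have hm' : Hg z (dec a₀ b₀ (a + b) z + m • w) := hm
    rcases hg_smul_two hk m with h1 | h1
    · left
      have h2 := hm'.trans ((Hg.refl _).add h1)
      rwa [add_zero] at h2
    · right
      have h2 := (hm'.trans ((Hg.refl _).add h1)).sub (Hg.refl (dec a₀ b₀ (a + b) z))
      rwa [add_sub_cancel_left] at h2
  rcases key z hz with h1 | h1
  · exact Or.inl h1
  · rcases key z' hz' with h2 | h2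
    · exact Or.inr (Or.inl h2)
    · exact Or.inr (Or.inr (h1.trans h2.symm))

end Vale.Agent.P263B5
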