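import Vale.Agent.P263.AD.FreuKun

/-!
# P263, the Künneth theorem in the first non-zero degree: the algebra

`Gen A n k` : `H_n(A)` is cyclic, and `k` kills it.
`gen_tens` : if `H_i(A) = 0` below `a`, `H_j(B) = 0` below `b`, and `H_a(A)`, `H_b(B)` are cyclic, then
`H_(a+b)(A ⊗ B)` is cyclic and killed by the number which kills `H_a(A)`.
-/

open scoped TensorProduct

namespace Vale.Agent.P263B5

open Vale.Agent.P263 Vale.Agent.P263.S Vale.Agent.P263.E Vale.Agent.P263.GB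
open Vale.Agent.P263.GB.SMod Vale.Agent.P263.AD.Freu

variable {R : Type} [CommRing R]

/-- `H_n(A)` is generated by one class, which is killed by `k` -/
def Gen (A : Cx R) (n : ℕ) (k : R) : Prop :=
  ∃ w, A.Cyc n w ∧ A.Rel n (k • w) 0 ∧ ∀ z, A.Cyc n z → ∃ m : R, A.Rel n z (m • w)

section SES

variable {A B C : Cx R} {i : Cx.Hom A B} {r : Cx.Hom B C}

theorem gen_right (h : Cx.SES i r) (hB : ∀ n, B.HZ n) {n : ℕ} {k : R} (hA : Gen A n k) :
    Gen C (n + 1) k := by
  obtain ⟨w, hw, ⟨t, ht⟩, hg⟩ := hA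
  obtain ⟨y, hy⟩ := hB n (i.app n w) (i.cyc hw)
  rw [sub_zero] at ht
  refine ⟨r.app (n + 1) y, ?_, ?_, fun z hz => ?_⟩
  · rw [Cx.cyc_succ, ← r.comm, hy, h.zero]
  · obtain ⟨s, hs⟩ := hB (n + 1) (k • y - i.app (n + 1) t) (by
      rw [Cx.cyc_succ, map_sub, map_smul, hy, ← i.comm, ht, map_smul, sub_self])
    refine ⟨r.app (n + 2) s, ?_⟩
    rw [← r.comm, hs, map_sub, h.zero, map_smul]
  · obtain ⟨y', rfl⟩ := h.surj (n + 1) z
    rw [Cx.cyc_succ] at hz
    obtain ⟨x, hx⟩ := h.exact n (B.d n y') (by rw [r.comm]; exact hz)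
    obtain ⟨m, u, hu⟩ := hg x (i.cyc_of_inj (by rw [hx]; exact B.cyc_d n y') h.inj)
    obtain ⟨s, hs⟩ := hB (n + 1) (y' - m • y - i.app (n + 1) u) (by
      rw [Cx.cyc_succ, map_sub, map_sub, map_smul, hy, ← i.comm, hu, map_sub, map_smul, hx,
        sub_self])
    refine ⟨m, r.app (n + 2) s, ?_⟩
    rw [← r.comm, hs, map_sub, h.zero, map_sub, map_smul, sub_zero]

theorem gen_left (h : Cx.SES i r) (hB : ∀ n, B.HZ n) {n : ℕ} {k : R} (hC : Gen C (n + 1) k) :
    Gen A n k := by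
  obtain ⟨W, hW, ⟨t, ht⟩, hg⟩ := hC
  obtain ⟨y, rfl⟩ := h.surj (n + 1) W
  rw [Cx.cyc_succ] at hW
  obtain ⟨w, hw⟩ := h.exact n (B.d n y) (by rw [r.comm]; exact hW)
  rw [sub_zero] at ht
  refine ⟨w, i.cyc_of_inj (by rw [hw]; exact B.cyc_d n y) h.inj, ?_, fun x hx => ?_⟩
  · obtain ⟨s, rfl⟩ := h.surj _ t
    obtain ⟨u, hu⟩ := h.exact (n + 1) (k • y - B.d (n + 1) s) (by
      rw [map_sub, map_smul, r.comm, ht, sub_self])
    refine ⟨u, h.inj n ?_⟩
    rw [i.comm, hu, map_sub, B.dd, map_smul, sub_zero, sub_zero, map_smul, hw]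
  · obtain ⟨y', hy'⟩ := hB n (i.app n x) (i.cyc hx)
    obtain ⟨m, z, hz⟩ := hg (r.app (n + 1) y') (by rw [Cx.cyc_succ, ← r.comm, hy', h.zero])
    obtain ⟨s, rfl⟩ := h.surj _ z
    obtain ⟨u, hu⟩ := h.exact (n + 1) (y' - m • y - B.d (n + 1) s) (by
      rw [map_sub, map_sub, map_smul, r.comm, hz, sub_self])
    refine ⟨m, u, h.inj n ?_⟩
    rw [i.comm, hu, map_sub, B.dd, sub_zero, map_sub, map_sub, map_smul, map_smul, hy', hw]

end SES

section Zero

variable {A B : SMod R}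

theorem d_zero_eq (A : SMod R) (x : A.obj 1) :
    A.d 0 x = A.map (dl 0 0) x - A.map (dl 0 1) x := by
  rw [SMod.d_apply]
  simp [Finset.sum_range_succ, sn, sub_eq_add_neg]

theorem map_dl_cst (A : SMod R) (j : ℕ) (x : A.obj 0) :
    A.map (dl 0 j) (A.map (cst 1 0) x) = x := by
  rw [← A.map_comp]
  have : (cst 1 0).comp (dl 0 j) = (OrderHom.id : Op 0 0) := by
    apply OrderHom.ext
    funext y
    apply Fin.ext
    have h1 := y.2
    have h2 := ((cst 1 0).comp (dl 0 j) y).2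
    change ((cst 1 0).comp (dl 0 j) y).1 = y.1
    omega
  rw [this, A.map_id]

theorem tm_map {p q : ℕ} (f : Op p q) (x : A.obj q) (y : B.obj q) :
    (A.tens B).map f (tm x y) = tm (A.map f x) (B.map f y) := TensorProduct.map_tmul _ _ _ _

theorem tm_sub_left {p : ℕ} (x x' : A.obj p) (y : B.obj p) : tm (x - x') y = tm x y - tm x' y :=
  TensorProduct.sub_tmul _ _ _

theorem tm_sub_right {p : ℕ} (x : A.obj p) (y y' : B.obj p) : tm x (y - y') = tm x y - tm x y' :=
  TensorProduct.tmul_sub _ _ _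

theorem tm_smul_left {p : ℕ} (m : R) (x : A.obj p) (y : B.obj p) : tm (m • x) y = m • tm x y :=
  (TensorProduct.smul_tmul' _ _ _).symm

theorem tm_smul_right {p : ℕ} (m : R) (x : A.obj p) (y : B.obj p) : tm x (m • y) = m • tm x y :=
  TensorProduct.tmul_smul _ _ _

theorem d_tm_left (x : A.obj 1) (y : B.obj 0) :
    (A.tens B).d 0 (tm x (B.map (cst 1 0) y)) = tm (A.d 0 x) y := by
  rw [d_zero_eq, d_zero_eq, tm_map, tm_map, map_dl_cst, map_dl_cst, tm_sub_left]

theorem d_tm_right (x : A.obj 0) (y : B.obj 1) :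
    (A.tens B).d 0 (tm (A.map (cst 1 0) x) y) = tm x (B.d 0 y) := by
  rw [d_zero_eq, d_zero_eq, tm_map, tm_map, map_dl_cst, map_dl_cst, tm_sub_right]

theorem rel_tm {x x' : A.obj 0} {y y' : B.obj 0} (h : A.cx.Rel 0 x x') (h' : B.cx.Rel 0 y y') :
    (A.tens B).cx.Rel 0 (tm x y) (tm x' y') := by
  obtain ⟨s, hs⟩ := h
  obtain ⟨t, ht⟩ := h'
  have hs' : A.d 0 s = x - x' := hs
  have ht' : B.d 0 t = y - y' := ht
  have h1 : (A.tens B).cx.Rel 0 (tm x y) (tm x' y) :=
    ⟨tm s (B.map (cst 1 0) y), (d_tm_left s y).trans (by rw [hs', tm_sub_left]; rfl)⟩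
  have h2 : (A.tens B).cx.Rel 0 (tm x' y) (tm x' y') :=
    ⟨tm (A.map (cst 1 0) x') t, (d_tm_right x' t).trans (by rw [ht', tm_sub_right]; rfl)⟩
  exact h1.trans h2

theorem gen_zero {k l : R} (hA : Gen A.cx 0 k) (hB : Gen B.cx 0 l) : Gen (A.tens B).cx 0 k := by
  obtain ⟨u, -, hu, gu⟩ := hA
  obtain ⟨v, -, -, gv⟩ := hB
  refine ⟨tm (show A.obj 0 from u) (show B.obj 0 from v), trivial, ?_, fun z _ => ?_⟩
  · have h1 := rel_tm hu (Cx.Rel.refl B.cx 0 v)
    have e1 : tm (show A.obj 0 from k • u) (show B.obj 0 from v) =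
        k • tm (show A.obj 0 from u) (show B.obj 0 from v) := tm_smul_left _ _ _
    have e2 : tm (0 : A.obj 0) (show B.obj 0 from v) = 0 := TensorProduct.zero_tmul _ _
    exact ((Cx.Rel.of_eq e1.symm).trans h1).trans (Cx.Rel.of_eq e2)
  · have key : ∀ z : A.obj 0 ⊗[R] B.obj 0, ∃ m : R, (A.tens B).cx.Rel 0 z
        (m • tm (show A.obj 0 from u) (show B.obj 0 from v) : (A.tens B).obj 0) := by
      intro z
      induction z using TensorProduct.induction_on with
      | zero => exact ⟨0, Cx.Rel.of_eq (zero_smul R (tm _ _ : (A.tens B).obj 0)).symm⟩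
      | add x y hx hy =>
        obtain ⟨m, hm⟩ := hx
        obtain ⟨m', hm'⟩ := hy
        exact ⟨m + m', (hm.add hm').trans
          (Cx.Rel.of_eq (add_smul m m' (tm _ _ : (A.tens B).obj 0)).symm)⟩
      | tmul x y =>
        obtain ⟨m, hm⟩ := gu x trivial
        obtain ⟨m', hm'⟩ := gv y trivial
        refine ⟨m * m', (rel_tm hm hm').trans (Cx.Rel.of_eq ?_)⟩
        exact (tm_smul_left m (show A.obj 0 from u) _).trans
          ((congrArg (m • ·) (tm_smul_right m' (show A.obj 0 from u)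
            (show B.obj 0 from v))).trans (mul_smul m m' _).symm)
    exact key z

end Zero

section Ded

variable [IsDedekindDomain R]

theorem gen_tens_zero (B : SMod R) (hTB : LTF B) {k l : R} (hB : Gen B.cx 0 l) (a : ℕ) :
    ∀ A : SMod R, (∀ i < a, A.cx.HZ i) → Gen A.cx a k → Gen (A.tens B).cx a k := by
  induction a with
  | zero => exact fun A _ hA => gen_zero hA hB
  | succ a ih =>
    intro A hA hg
    have h0 := hA 0 (by omega)
    refine gen_right (ses_tensL (A.ses_loop h0) B hTB.flat).cx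
      (hz_tens_left A.pcon A.pcon_zero A.pcon_one B) ?_
    exact ih A.Loop (fun i hi => A.loop_hz h0 i (hA (i + 1) (by omega)))
      (gen_left (A.ses_loop h0).cx A.Path_hz hg)

/-- **The Künneth theorem in the first non-zero degree.** -/
theorem gen_tens (A : SMod R) (hTA : LTF A) {k l : R} (a : ℕ) (hA : ∀ i < a, A.cx.HZ i)
    (hg : Gen A.cx a k) (b : ℕ) : ∀ B : SMod R, LTF B → (∀ i < b, B.cx.HZ i) → Gen B.cx b l →
      Gen (A.tens B).cx (a + b) k := by
  induction b with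
  | zero => exact fun B hTB _ hB => gen_tens_zero B hTB hB a A hA hg
  | succ b ih =>
    intro B hTB hB hgB
    have h0 := hB 0 (by omega)
    refine gen_right (n := a + b) (ses_tensR (B.ses_loop h0) A hTA.flat).cx
      (hz_tens_right B.pcon B.pcon_zero B.pcon_one A) ?_
    exact ih B.Loop hTB.loop (fun i hi => B.loop_hz h0 i (hB (i + 1) (by omega)))
      (gen_left (B.ses_loop h0).cx B.Path_hz hgB)

end Ded

end Vale.Agent.P263B5
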