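import Vale.Agent.P263B5.Alg

/-!
# P263, the Künneth theorem in the first non-zero degree: simplicial sets and spaces

`kun_edge` : if the reduced integral homology of `A` vanishes below `a`, the one of `B` below `b`, and
the groups in the degrees `a` and `b` are cyclic, the first one killed by `k`, then there is a cycle
`w` of `A × B` in degree `a + b`, killed by `k`, such that every reduced cycle is homologous to the sum
of its images on the two axes, minus its image in the base point, plus a multiple of `w`.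
-/

open Topology Set Vale.Agent.P246.T Vale.Agent.P246.T.FM

namespace Vale.Agent.P263B5

open Vale.Agent.P263 Vale.Agent.P263.S Vale.Agent.P263.E Vale.Agent.P263.GB
open Vale.Agent.P263.GB.SMod Vale.Agent.P263.AD.Freu

section SSet

variable {R : Type} [CommRing R]

/-- the projection to the tensor product of the reduced chains -/
noncomputable def qT (R : Type) [CommRing R] {X Y : SS} (x₀ : X.obj 0) (y₀ : Y.obj 0) :
    SMod.Hom (free R (X.prod Y)) ((red R X).tens (red R Y)) :=
  ((SMod.tensR (red R X) (redQ R y₀)).comp (SMod.tensL (redQ R x₀) (free R Y))).comp (prodT R X Y)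

/-- the inclusion of the tensor product of the reduced chains -/
noncomputable def iT (R : Type) [CommRing R] (X Y : SS) :
    SMod.Hom ((red R X).tens (red R Y)) (free R (X.prod Y)) :=
  (tprod R X Y).comp
    ((SMod.tensR (free R X) (redI R Y)).comp (SMod.tensL (redI R X) (red R Y)))

theorem iT_qT {X Y : SS} (x₀ : X.obj 0) (y₀ : Y.obj 0) (n : ℕ) (z : (free R (X.prod Y)).obj n) :
    (iT R X Y).app n ((qT R x₀ y₀).app n z) = z - ((freeMap R (c10 X y₀)).app n z +
      (freeMap R (c01 x₀ Y)).app n z - (freeMap R (c00 x₀ y₀)).app n z) := by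
  refine free_hom_ext (f := (iT R X Y).app n ∘ₗ (qT R x₀ y₀).app n)
    (g := LinearMap.id - ((freeMap R (c10 X y₀)).app n +
      (freeMap R (c01 x₀ Y)).app n - (freeMap R (c00 x₀ y₀)).app n)) (fun t => ?_) z
  obtain ⟨x, y, rfl⟩ : ∃ x y, t = mkp x y := ⟨t.1, t.2, rfl⟩
  let q : SMod.Hom ((free R X).tens (free R Y)) ((red R X).tens (red R Y)) :=
    (SMod.tensR (red R X) (redQ R y₀)).comp (SMod.tensL (redQ R x₀) (free R Y))
  let i : SMod.Hom ((red R X).tens (red R Y)) ((free R X).tens (free R Y)) :=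
    (SMod.tensR (free R X) (redI R Y)).comp (SMod.tensL (redI R X) (red R Y))
  show (tprod R X Y).app n (i.app n (q.app n ((prodT R X Y).app n (gen R (mkp x y)))))
    = gen R (mkp x y) - ((freeMap R (c10 X y₀)).app n (gen R (mkp x y)) +
      (freeMap R (c01 x₀ Y)).app n (gen R (mkp x y)) -
      (freeMap R (c00 x₀ y₀)).app n (gen R (mkp x y)))
  rw [freeMap_gen, freeMap_gen, freeMap_gen, prodT_gen]
  have h3 : i.app n (q.app n (tm (gen R x) (gen R y))) = tm (gen R x - gen R (X.map (cst n 0) x₀))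
        (gen R y - gen R (Y.map (cst n 0) y₀)) := by
    have hx : ((redQ R x₀).app n (gen R x)).1 = gen R x - gen R (X.map (cst n 0) x₀) := by
      rw [redQ_coe, freeMap_gen]; rfl
    have hy : ((redQ R y₀).app n (gen R y)).1 = gen R y - gen R (Y.map (cst n 0) y₀) := by
      rw [redQ_coe, freeMap_gen]; rfl
    rw [← hx, ← hy]
    rfl
  rw [h3, tm_sub, map_sub, map_sub, map_sub, tprod_gen, tprod_gen, tprod_gen, tprod_gen]
  show gen R (mkp x y) - gen R (mkp x (Y.map (cst n 0) y₀)) -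
    (gen R (mkp (X.map (cst n 0) x₀) y) - gen R (mkp (X.map (cst n 0) x₀) (Y.map (cst n 0) y₀))) =
    gen R (mkp x y) - (gen R (mkp x (Y.map (cst n 0) y₀)) + gen R (mkp (X.map (cst n 0) x₀) y) -
      gen R (mkp (X.map (cst n 0) x₀) (Y.map (cst n 0) y₀)))
  abel

/-- **Künneth for two factors, in the first non-zero degree.** -/
theorem kun_edge_ss [IsDedekindDomain R] (X Y : SS) (x₀ : X.obj 0) (y₀ : Y.obj 0) (a b : ℕ)
    (hX : ∀ i < a, (red R X).cx.HZ i) (hY : ∀ i < b, (red R Y).cx.HZ i) {k l : R}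
    (gX : Gen (red R X).cx a k) (gY : Gen (red R Y).cx b l) :
    ∃ w : (free R (X.prod Y)).obj (a + b), (free R (X.prod Y)).cx.Cyc (a + b) w ∧
      (free R (X.prod Y)).cx.Rel (a + b) (k • w) 0 ∧
      ∀ z : (free R (X.prod Y)).obj (a + b), (free R (X.prod Y)).cx.Cyc (a + b) z → ∃ m : R,
        (free R (X.prod Y)).cx.Rel (a + b) z ((freeMap R (c10 X y₀)).app (a + b) z +
          (freeMap R (c01 x₀ Y)).app (a + b) z - (freeMap R (c00 x₀ y₀)).app (a + b) z +
            m • w) := by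
  obtain ⟨w, hw, hk, hg⟩ := gen_tens (red R X) (ltf_red X) a hX gX b (red R Y) (ltf_red Y) hY gY
  refine ⟨(iT R X Y).app (a + b) w, (iT R X Y).cx.cyc hw, ?_, fun z hz => ?_⟩
  · have h1 := hk.map (iT R X Y).cx
    rw [map_zero, map_smul] at h1
    exact h1
  · obtain ⟨m, hm⟩ := hg ((qT R x₀ y₀).app (a + b) z) ((qT R x₀ y₀).cx.cyc hz)
    obtain ⟨t, ht⟩ := hm.map (iT R X Y).cx
    rw [map_smul] at ht
    refine ⟨m, t, ht.trans ?_⟩
    have h2 := iT_qT x₀ y₀ (a + b) z
    show (iT R X Y).app (a + b) ((qT R x₀ y₀).app (a + b) z) - m • (iT R X Y).app (a + b) w =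
      z - ((freeMap R (c10 X y₀)).app (a + b) z + (freeMap R (c01 x₀ Y)).app (a + b) z -
        (freeMap R (c00 x₀ y₀)).app (a + b) z + m • (iT R X Y).app (a + b) w)
    rw [h2]
    abel

end SSet

section Top

variable {X Y : Type} [TopologicalSpace X] [TopologicalSpace Y]

/-- the reduced homology in degree `n` is cyclic and killed by `k` -/
def RGen (X : Type) [TopologicalSpace X] (n : ℕ) (k : ℤ) : Prop :=
  ∃ w : Ch n X, RedCyc n w ∧ Hg (k • w) 0 ∧ ∀ z : Ch n X, RedCyc n z → ∃ m : ℤ, Hg z (m • w)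

theorem redCyc_off {n : ℕ} {x : (red ℤ (G2.sing X)).obj n} (hx : (red ℤ (G2.sing X)).cx.Cyc n x) :
    RedCyc n (off x.1) := by
  cases n with
  | zero => exact wt_eq_zero x.2
  | succ n =>
    have h2 : (free ℤ (G2.sing X)).d n x.1 = 0 := (redI ℤ (G2.sing X)).cx.cyc hx
    exact (free_d n (off x.1)).symm.trans h2

theorem gen_red {n : ℕ} (x₀ : X) {k : ℤ} (h : RGen X n k) : Gen (red ℤ (G2.sing X)).cx n k := by
  obtain ⟨w, hw, hk, hg⟩ := h
  let Q := redQ ℤ (X := G2.sing X) (G2.ofC (ContinuousMap.const _ x₀))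
  refine ⟨Q.app n (tof w), Q.cx.cyc (cyc_tof hw), ?_, fun z hz => ?_⟩
  · have h1 := (tof_rel hk).map Q.cx
    have e1 : Q.cx.app n (tof (k • w)) = k • Q.cx.app n (tof w) := map_smul (Q.cx.app n) k (tof w)
    have e2 : Q.cx.app n (tof (0 : Ch n X)) = 0 := map_zero (Q.cx.app n)
    rw [e1, e2] at h1
    exact h1
  · obtain ⟨m, hm⟩ := hg (off z.1) (redCyc_off hz)
    have h1 := (tof_rel hm).map Q.cx
    have e1 : Q.cx.app n (tof (m • w)) = m • Q.cx.app n (tof w) := map_smul (Q.cx.app n) m (tof w)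
    have e2 : Q.cx.app n (tof (off z.1)) = z := redQ_redI _ z
    rw [e1, e2] at h1
    exact ⟨m, h1⟩

end Top

/-- **The decomposition of the cycles of a product in the first degree outside the range.** -/
theorem kun_edge' {A B : Type} [TopologicalSpace A] [TopologicalSpace B] (a₀ : A) (b₀ : B)
    (a b : ℕ) (hA : ∀ i < a, RZ A i) (hB : ∀ i < b, RZ B i) {k l : ℤ}
    (gA : RGen A a k) (gB : RGen B b l) :
    ∃ w : Ch (a + b) (A × B), (0 < a + b → RedCyc (a + b) w) ∧ Hg (k • w) 0 ∧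
      ∀ z : Ch (a + b) (A × B), RedCyc (a + b) z → ∃ m : ℤ,
        Hg z (push (⟨fun q => (q.1, b₀), by fun_prop⟩ : C(A × B, A × B)) (a + b) z +
          push (⟨fun q => (a₀, q.2), by fun_prop⟩ : C(A × B, A × B)) (a + b) z -
          push (ContinuousMap.const (A × B) (a₀, b₀)) (a + b) z + m • w) := by
  obtain ⟨w, hw, hk, hg⟩ := kun_edge_ss (G2.sing A) (G2.sing B)
    (G2.ofC (ContinuousMap.const _ a₀)) (G2.ofC (ContinuousMap.const _ b₀)) a b
    (fun i hi => hz_red a₀ (hA i hi)) (fun i hi => hz_red b₀ (hB i hi)) (gen_red a₀ gA)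
    (gen_red b₀ gB)
  generalize a + b = n at *
  let M := freeMap ℤ (mkS A B)
  refine ⟨off (M.app n w), fun hab => ?_, ?_, fun z hz => ?_⟩
  · obtain ⟨n, rfl⟩ : ∃ m, n = m + 1 := ⟨n - 1, by omega⟩
    exact (free_d n (off (M.app (n + 1) w))).symm.trans (M.cx.cyc hw)
  · have h1 := hk.map M.cx
    change (free ℤ (G2.sing (A × B))).cx.Rel n (M.app n (k • w)) (M.app n 0) at h1
    rw [map_zero, map_smul] at h1
    exact rel_tof h1
  · obtain ⟨m, hm⟩ := hg ((freeMap ℤ (prS A B)).app n (tof z))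
      ((freeMap ℤ (prS A B)).cx.cyc (cyc_tof hz))
    have h2 := hm.map M.cx
    refine ⟨m, rel_tof ?_⟩
    have e0 : M.app n ((freeMap ℤ (prS A B)).app n (tof z)) = tof z := by
      rw [← freeMap_comp_app]
      exact freeMap_id_app _
    have e1 : ∀ (g : SS.Map ((G2.sing A).prod (G2.sing B)) ((G2.sing A).prod (G2.sing B)))
        (f : C(A × B, A × B)), ((mkS A B).comp g).comp (prS A B) = G2.singMap f →
        M.app n ((freeMap ℤ g).app n ((freeMap ℤ (prS A B)).app n (tof z))) =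
          tof (push f n z) := by
      intro g f h
      rw [← freeMap_comp_app, ← freeMap_comp_app, h, freeMap_push]
    change (free ℤ (G2.sing (A × B))).cx.Rel n (M.app n ((freeMap ℤ (prS A B)).app n (tof z)))
      (M.app n _) at h2
    rw [e0, map_add, map_sub, map_add, map_smul,
      e1 _ (⟨fun q => (q.1, b₀), by fun_prop⟩ : C(A × B, A × B)) rfl,
      e1 _ (⟨fun q => (a₀, q.2), by fun_prop⟩ : C(A × B, A × B)) rfl,
      e1 _ (ContinuousMap.const (A × B) (a₀, b₀)) rfl] at h2
    exact h2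

/-- the same, with a reduced cycle `w` -/
theorem kun_edge {A B : Type} [TopologicalSpace A] [TopologicalSpace B] (a₀ : A) (b₀ : B)
    (a b : ℕ) (hab : 0 < a + b) (hA : ∀ i < a, RZ A i) (hB : ∀ i < b, RZ B i) {k l : ℤ}
    (gA : RGen A a k) (gB : RGen B b l) :
    ∃ w : Ch (a + b) (A × B), RedCyc (a + b) w ∧ Hg (k • w) 0 ∧
      ∀ z : Ch (a + b) (A × B), RedCyc (a + b) z → ∃ m : ℤ,
        Hg z (push (⟨fun q => (q.1, b₀), by fun_prop⟩ : C(A × B, A × B)) (a + b) z +
          push (⟨fun q => (a₀, q.2), by fun_prop⟩ : C(A × B, A × B)) (a + b) z -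
          push (ContinuousMap.const (A × B) (a₀, b₀)) (a + b) z + m • w) := by
  obtain ⟨w, hw, h⟩ := kun_edge' a₀ b₀ a b hA hB gA gB
  exact ⟨w, hw hab, h⟩

end Vale.Agent.P263B5
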