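import Vale.Agent.P263B5.Top
import Vale.Agent.P263B15.Defs

/-!
# P263, the Künneth theorem in the first non-zero degree: groups with at most two elements
-/

open Topology Set Vale.Agent.P246.T Vale.Agent.P246.T.FM

namespace Vale.Agent.P263B5

open Vale.Agent.P263.AD.Freu Vale.Agent.P263B15

variable {X : Type} [TopologicalSpace X] {n : ℕ}

theorem hg_smul {c c' : Ch n X} (h : Hg c c') (m : ℤ) : Hg (m • c) (m • c') := by
  obtain ⟨b, hb⟩ := h
  exact ⟨m • b, by rw [map_smul, hb, smul_sub]⟩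

theorem redCyc_zero : RedCyc n (0 : Ch n X) := by
  have := redCyc_bd n (0 : Ch (n + 1) X)
  rwa [map_zero] at this

/-- a multiple of a class of order two -/
theorem hg_smul_two {w : Ch n X} (h : Hg ((2 : ℤ) • w) 0) (m : ℤ) :
    Hg (m • w) 0 ∨ Hg (m • w) w := by
  have h1 := hg_smul h (m / 2)
  rw [smul_zero, smul_smul] at h1
  rcases Int.emod_two_eq_zero_or_one m with h2 | h2
  · left
    rwa [show m / 2 * 2 = m by omega] at h1
  · right
    have h3 := h1.add (Hg.refl w)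
    rw [zero_add] at h3
    refine (Hg.of_eq ?_).trans h3
    conv_lhs => rw [show m = m / 2 * 2 + 1 by omega]
    rw [add_smul, one_smul]

theorem rgen_of_h2 (h : H2 X n) : RGen X n 2 := by
  by_cases h0 : ∀ c : Ch n X, RedCyc n c → Hg c 0
  · refine ⟨0, redCyc_zero, by rw [smul_zero]; exact Hg.refl _, fun z hz => ⟨0, ?_⟩⟩
    rw [smul_zero]
    exact h0 z hz
  · push Not at h0
    obtain ⟨w, hw, hw0⟩ := h0
    refine ⟨w, hw, ?_, fun z hz => ?_⟩
    · rcases h ((2 : ℤ) • w) w (hw.smul 2) hw with h1 | h1 | h1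
      · exact h1
      · exact absurd h1 hw0
      · have h2 := h1.sub (Hg.refl w)
        rw [sub_self, two_smul, add_sub_cancel_right] at h2
        exact absurd h2 hw0
    · rcases h z w hz hw with h1 | h1 | h1
      · exact ⟨0, by rwa [zero_smul]⟩
      · exact absurd h1 hw0
      · exact ⟨1, by rwa [one_smul]⟩

theorem h2_of_rgen (h : RGen X n 2) : H2 X n := by
  obtain ⟨w, -, hk, hg⟩ := h
  intro c c' hc hc'
  obtain ⟨m, hm⟩ := hg c hc
  obtain ⟨m', hm'⟩ := hg c' hc'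
  rcases hg_smul_two hk m with h1 | h1
  · exact Or.inl (hm.trans h1)
  · rcases hg_smul_two hk m' with h2 | h2
    · exact Or.inr (Or.inl (hm'.trans h2))
    · exact Or.inr (Or.inr ((hm.trans h1).trans (hm'.trans h2).symm))

/-- **One class.** Every reduced cycle of `A × B` in degree `a + b` is homologous to `dec z` or to
`dec z + w`. -/
theorem kun_two {A B : Type} [TopologicalSpace A] [TopologicalSpace B] (a₀ : A) (b₀ : B)
    (a b : ℕ) (hab : 0 < a + b) (hA : ∀ i < a, RZ A i) (hB : ∀ i < b, RZ B i) (gA : H2 A a)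
    (gB : H2 B b) : ∃ w : Ch (a + b) (A × B), RedCyc (a + b) w ∧ Hg ((2 : ℤ) • w) 0 ∧
      ∀ z : Ch (a + b) (A × B), RedCyc (a + b) z →
        Hg z (dec a₀ b₀ (a + b) z) ∨ Hg z (dec a₀ b₀ (a + b) z + w) := by
  obtain ⟨w, hw, hk, hg⟩ := kun_edge a₀ b₀ a b hab hA hB (rgen_of_h2 gA) (rgen_of_h2 gB)
  refine ⟨w, hw, hk, fun z hz => ?_⟩
  obtain ⟨m, hm⟩ := hg z hz
  rcases hg_smul_two hk m with h1 | h1
  · left
    have h2 := hm.trans ((Hg.refl _).add h1)
    rw [add_zero] at h2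
    exact h2
  · exact Or.inr (hm.trans ((Hg.refl _).add h1))

/-- **Trichotomy.** -/
theorem kun_tri {A B : Type} [TopologicalSpace A] [TopologicalSpace B] (a₀ : A) (b₀ : B)
    (a b : ℕ) (hab : 0 < a + b) (hA : ∀ i < a, RZ A i) (hB : ∀ i < b, RZ B i) (gA : H2 A a)
    (gB : H2 B b) (z z' : Ch (a + b) (A × B)) (hz : RedCyc (a + b) z) (hz' : RedCyc (a + b) z') :
    Hg z (dec a₀ b₀ (a + b) z) ∨ Hg z' (dec a₀ b₀ (a + b) z') ∨
      Hg (z - dec a₀ b₀ (a + b) z) (z' - dec a₀ b₀ (a + b) z') := by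
  obtain ⟨w, -, -, hg⟩ := kun_two a₀ b₀ a b hab hA hB gA gB
  rcases hg z hz with h1 | h1
  · exact Or.inl h1
  · rcases hg z' hz' with h2 | h2
    · exact Or.inr (Or.inl h2)
    · refine Or.inr (Or.inr ?_)
      have h3 := h1.sub (Hg.refl (dec a₀ b₀ (a + b) z))
      have h4 := h2.sub (Hg.refl (dec a₀ b₀ (a + b) z'))
      rw [add_sub_cancel_left] at h3 h4
      exact h3.trans h4.symm

end Vale.Agent.P263B5
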